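import Vale.Agent.Lib.P262.FT.Lists

namespace Vale.Agent.Results.P262.C_few_types

/-- Steinitz rearrangement with few distinct vectors: a zero-sum family in the unit ball of a real
inner product space, with `m` distinct values and arbitrary multiplicities, has a rearrangement
all of whose initial sums have norm at most `√(21 m / 4)`. -/
theorem result {E : Type*} [NormedAddCommGroup E] [InnerProductSpace ℝ E] {N : ℕ}
    (v : Fin N → E) (hv : ∀ i, ‖v i‖ ≤ 1) (h0 : ∑ i, v i = 0) :
    ∃ π : Equiv.Perm (Fin N), ∀ k : ℕ, k ≤ N →
      ‖∑ i ∈ Finset.univ.filter (fun i : Fin N => (i : ℕ) < k), v (π i)‖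
        ≤ √((21 / 4) * (Set.range v).ncard) :=
  Vale.Agent.Lib.P262.FT.few_types_family v hv h0

end Vale.Agent.Results.P262.C_few_types
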