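import Vale.Agent.Results.P262.A_S2_unconditional
import Vale.Agent.Results.P262.C_few_types

namespace Vale.Agent.Results.P262.A00_master

/-- **Euclidean Steinitz bounds.** (1) There is an absolute constant `K` such that every zero-sum
family of `N` vectors in the closed unit ball of Euclidean `ℝ^d` has an ordering all of whose
initial segment sums have norm at most `K * √(d * log (d + 2))`, whatever `N` is. (2) A zero-sum family
in the unit ball of a real inner product space, with `m` distinct values and arbitrary multiplicities,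
has a rearrangement all of whose initial sums have norm at most `√(21 m / 4)`. -/
theorem result {E : Type*} [NormedAddCommGroup E] [InnerProductSpace ℝ E] :
    (∃ K : ℝ, ∀ (d N : ℕ) (v : Fin N → EuclideanSpace ℝ (Fin d)),
      (∀ i, ‖v i‖ ≤ 1) → ∑ i, v i = 0 →
      ∃ π : Equiv.Perm (Fin N), ∀ m : ℕ, m ≤ N →
        ‖∑ i ∈ Finset.univ.filter (fun i : Fin N => i.val < m), v (π i)‖
          ≤ K * Real.sqrt (d * Real.log ((d : ℝ) + 2))) ∧
    (∀ {N : ℕ} (v : Fin N → E), (∀ i, ‖v i‖ ≤ 1) → ∑ i, v i = 0 →
      ∃ π : Equiv.Perm (Fin N), ∀ k : ℕ, k ≤ N →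
        ‖∑ i ∈ Finset.univ.filter (fun i : Fin N => (i : ℕ) < k), v (π i)‖
          ≤ √((21 / 4) * (Set.range v).ncard)) :=
  ⟨Vale.Agent.Results.P262.A_S2_unconditional.result,
    fun v hv h0 => Vale.Agent.Results.P262.C_few_types.result v hv h0⟩

end Vale.Agent.Results.P262.A00_master
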