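import Vale.Agent.Lib.P262.BanFinal

namespace Vale.Agent.Results.P262.A_S2_unconditional

/-- **Euclidean Steinitz bound.** There is an absolute constant `K` such that every zero-sum
family of `N` vectors in the closed unit ball of Euclidean `ℝ^d` has an ordering all of whose
initial segment sums have norm at most `K * √(d * log (d + 2))`, whatever `N` is. -/
theorem result :
    ∃ K : ℝ, ∀ (d N : ℕ) (v : Fin N → EuclideanSpace ℝ (Fin d)),
      (∀ i, ‖v i‖ ≤ 1) → ∑ i, v i = 0 →
      ∃ π : Equiv.Perm (Fin N), ∀ m : ℕ, m ≤ N →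
        ‖∑ i ∈ Finset.univ.filter (fun i : Fin N => i.val < m), v (π i)‖
          ≤ K * Real.sqrt (d * Real.log ((d : ℝ) + 2)) :=
  ⟨Vale.Agent.Lib.P262.KC 122, Vale.Agent.Lib.P262.Ban.steinitz_bound⟩

end Vale.Agent.Results.P262.A_S2_unconditional
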