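import Vale.Agent.Lib.P262.Final

namespace Vale.Agent.Results.P262.A_main

open Vale.Agent.Lib.P262

/-- Assuming the theorem of Banaszczyk (2012) listed in the problem file, with constant `C`,
the Euclidean Steinitz constant satisfies `S₂(d) ≤ K * √(d * log (d + 2))`: the constant `K`
depends only on `C`, and the length `N` of the family no longer enters. -/
theorem result (C : ℝ) (hC : BanaszczykOrdering C) :
    ∃ K : ℝ, ∀ (d N : ℕ) (v : Fin N → EuclideanSpace ℝ (Fin d)),
      (∀ i, ‖v i‖ ≤ 1) → ∑ i, v i = 0 →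
      ∃ π : Equiv.Perm (Fin N), ∀ m : ℕ, m ≤ N →
        ‖∑ i ∈ Finset.univ.filter (fun i : Fin N => i.val < m), v (π i)‖
          ≤ K * Real.sqrt (d * Real.log ((d : ℝ) + 2)) :=
  ⟨KC C, fun d N v h1 h0 => main_bound hC d N v h1 h0⟩

end Vale.Agent.Results.P262.A_main
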